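import Mathlib

namespace P336M

open Finset

variable {n : ℕ}

theorem partner (B : Finset (Fin n → Bool)) (σ : (Fin n → Bool) → Fin n → Finset (Fin n × Bool))
    (h1 : ∀ x ∈ B, ∀ i, (i, x i) ∈ σ x i)
    (h2 : ∀ x ∈ B, ∀ i j, (j, x j) ∈ σ x i → j = i)
    (h3 : ∀ x ∈ B, ∀ i, (i, !x i) ∉ σ x i)
    (h4 : ∀ x ∈ B, ∀ y ∈ B, ∀ i, ∃ j, σ x i = σ y j)
    {x y : Fin n → Bool} (hx : x ∈ B) (hy : y ∈ B) {j : Fin n} (hj : x j ≠ y j) :
    ∃ k, k ≠ j ∧ ∀ z ∈ B, (z j = x j ↔ z k = x k) := by
  classical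
  have hne : ∀ {a b : Bool}, a ≠ b → b = !a := by decide
  have hinj : ∀ z ∈ B, ∀ a b, σ z a = σ z b → a = b := fun z hz a b h =>
    h2 z hz b a (h ▸ h1 z hz a)
  have hp : ∀ a, ∃ i, ∀ z ∈ B, x a ≠ z a → σ x i = σ z a ∧ i ≠ a := by
    intro a
    by_cases ha : ∃ z ∈ B, x a ≠ z a
    · obtain ⟨z, hz, haz⟩ := ha
      obtain ⟨i, hi⟩ := h4 z hz x hx a
      have hm : (a, !x a) ∈ σ x i := by rw [← hi, ← hne haz]; exact h1 z hz a
      refine ⟨i, fun w hw haw => ⟨?_, fun h => h3 x hx a (h ▸ hm)⟩⟩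
      obtain ⟨l, hl⟩ := h4 x hx w hw i
      have : a = l := h2 w hw l a (by rw [← hl, hne haw]; exact hm)
      rw [hl, this]
    · exact ⟨a, fun z hz h => absurd ⟨z, hz, h⟩ ha⟩
  choose p hp using hp
  have hpD : ∀ z ∈ B, ∀ a, x a ≠ z a → x (p a) ≠ z (p a) := by
    intro z hz a ha h
    obtain ⟨e, hn⟩ := hp a z hz ha
    exact hn (h2 z hz a (p a) (by rw [← e, ← h]; exact h1 x hx _))
  have hpI : ∀ z ∈ B, ∀ a b, x a ≠ z a → x b ≠ z b → p a = p b → a = b := by
    intro z hz a b ha hb h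
    exact hinj z hz a b (by rw [← (hp a z hz ha).1, ← (hp b z hz hb).1, h])
  refine ⟨p j, (hp j y hy hj).2, fun z hz => ⟨fun h => ?_, fun h => ?_⟩⟩
  · by_contra hc
    have hc' : x (p j) ≠ z (p j) := fun e => hc e.symm
    set W := univ.filter (fun a => x a ≠ y a ∧ x a ≠ z a) with hW
    have hs : Set.SurjOn p W W := by
      refine Finset.surjOn_of_injOn_of_card_le p ?_ ?_ le_rfl
      · intro a ha
        simp only [hW, coe_filter, mem_univ, true_and, Set.mem_setOf_eq] at ha ⊢
        exact ⟨hpD y hy a ha.1, hpD z hz a ha.2⟩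
      · intro a ha b hb h
        simp only [hW, coe_filter, mem_univ, true_and, Set.mem_setOf_eq] at ha hb
        exact hpI y hy a b ha.1 hb.1 h
    obtain ⟨w, hw, e⟩ := hs (show p j ∈ (W : Set (Fin n)) by
      simp only [hW, coe_filter, mem_univ, true_and, Set.mem_setOf_eq]
      exact ⟨hpD y hy j hj, hc'⟩)
    simp only [hW, coe_filter, mem_univ, true_and, Set.mem_setOf_eq] at hw
    have := hpI y hy w j hw.1 hj e
    exact hw.2 (this ▸ h.symm)
  · by_contra hc
    exact hpD z hz j (fun e => hc e.symm) h.symm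

theorem fibre (B : Finset (Fin n → Bool))
    (hB : ∀ x ∈ B, ∀ y ∈ B, ∀ j, x j ≠ y j → ∃ k, k ≠ j ∧ ∀ z ∈ B, (z j = x j ↔ z k = x k)) :
    B.card ≤ 2 ^ (n / 2) := by
  classical
  let r : Fin n → Fin n → Prop := fun i j => ∀ z ∈ B, ∀ w ∈ B, (z i = w i ↔ z j = w j)
  let R : Finset (Fin n) :=
    univ.filter fun j => (∃ x ∈ B, ∃ y ∈ B, x j ≠ y j) ∧ ∀ i, r i j → j ≤ i
  have hq : ∀ j, ∃ k, j ∈ R → k ≠ j ∧ r k j := by
    intro j
    by_cases hj : j ∈ R
    · obtain ⟨⟨x, hx, y, hy, hxy⟩, -⟩ := (mem_filter.1 hj).2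
      obtain ⟨k, hk, h⟩ := hB x hx y hy j hxy
      refine ⟨k, fun _ => ⟨hk, fun z hz w hw => ?_⟩⟩
      have a := h z hz
      have b := h w hw
      revert a b
      generalize z j = a1; generalize x j = a2; generalize z k = a3
      generalize x k = a4; generalize w j = a5; generalize w k = a6
      revert a1 a2 a3 a4 a5 a6
      decide
    · exact ⟨j, fun h => absurd h hj⟩
  choose q hq using hq
  have huniq : ∀ a ∈ R, ∀ b ∈ R, r a b → a = b := fun a ha b hb h =>
    le_antisymm ((mem_filter.1 ha).2.2 b fun z hz w hw => (h z hz w hw).symm)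
      ((mem_filter.1 hb).2.2 a h)
  have hR : R.card ≤ (univ \ R).card := by
    refine card_le_card_of_injOn q (fun a ha => ?_) fun a ha b hb h => ?_
    · have ha' : a ∈ R := ha
      simp only [coe_sdiff, coe_univ, Set.mem_diff, Set.mem_univ, true_and, mem_coe]
      exact fun h => (hq a ha').1 (huniq _ h _ ha' (hq a ha').2)
    · refine huniq a ha b hb fun z hz w hw => ?_
      rw [← (hq a ha).2 z hz w hw, h, (hq b hb).2 z hz w hw]
  have hR2 : R.card ≤ n / 2 := by
    rw [card_sdiff_of_subset (subset_univ R), card_univ, Fintype.card_fin] at hR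
    omega
  have hc : B.card ≤ (univ : Finset (R → Bool)).card := by
    refine card_le_card_of_injOn (fun x j => x j.1) (fun _ _ => mem_coe.2 (mem_univ _))
      fun x hx y hy h => ?_
    funext i
    by_contra hi
    obtain ⟨m, hm, hmin⟩ := exists_min_image (univ.filter fun a => r a i) id
      ⟨i, mem_filter.2 ⟨mem_univ _, fun _ _ _ _ => Iff.rfl⟩⟩
    have hmi := (mem_filter.1 hm).2
    have hxy : x m ≠ y m := fun e => hi ((hmi x hx y hy).1 e)
    have hmR : m ∈ R := mem_filter.2 ⟨mem_univ _, ⟨x, hx, y, hy, hxy⟩, fun a ha =>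
      hmin a (mem_filter.2 ⟨mem_univ _, fun z hz w hw => (ha z hz w hw).trans (hmi z hz w hw)⟩)⟩
    exact hxy (congrFun h ⟨m, hmR⟩)
  rw [card_univ, Fintype.card_fun, Fintype.card_bool, Fintype.card_coe] at hc
  exact hc.trans (Nat.pow_le_pow_right two_pos hR2)

theorem cnf_bound (F : Finset (Finset (Fin n × Bool))) (A : Finset (Fin n → Bool))
    (hA : ∀ x ∈ A, ∀ C ∈ F, ∃ l ∈ C, x l.1 = l.2)
    (hI : ∀ x ∈ A, ∀ i, ¬ ∀ C ∈ F, ∃ l ∈ C, Function.update x i (!x i) l.1 = l.2) :
    A.card ≤ 2 ^ (n / 2) * F.card.choose n := by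
  classical
  have hσ : ∀ x i, ∃ C : Finset (Fin n × Bool), x ∈ A → C ∈ F ∧ (i, x i) ∈ C ∧
      (∀ j, (j, x j) ∈ C → j = i) ∧ (i, !x i) ∉ C := by
    intro x i
    by_cases hx : x ∈ A
    · have := hI x hx i
      push Not at this
      obtain ⟨C, hC, h⟩ := this
      have g : ∀ j, (j, x j) ∈ C → j = i := fun j hj => by
        by_contra hji
        exact h _ hj (by simp [Function.update_of_ne hji])
      refine ⟨C, fun _ => ⟨hC, ?_, g, fun hm => h _ hm (by simp)⟩⟩
      obtain ⟨⟨a, b⟩, hl, e⟩ := hA x hx C hC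
      simp only at e
      subst e
      have := g a hl
      subst this
      exact hl
    · exact ⟨∅, fun h => absurd h hx⟩
  choose σ hσ using hσ
  rw [← card_powersetCard]
  refine card_le_mul_card_image_of_maps_to (f := fun x => univ.image (σ x)) (fun x hx => ?_) _
    fun S _ => ?_
  · rw [mem_powersetCard]
    refine ⟨fun C hC => ?_, ?_⟩
    · obtain ⟨i, -, rfl⟩ := mem_image.1 hC
      exact (hσ x i hx).1
    · have hi : Function.Injective (σ x) := fun a b h =>
        (hσ x b hx).2.2.1 a (h ▸ (hσ x a hx).2.1)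
      rw [card_image_of_injective _ hi, card_univ, Fintype.card_fin]
  · refine fibre _ fun x hx y hy j hj => partner _ σ
      (fun x hx i => (hσ x i (mem_filter.1 hx).1).2.1)
      (fun x hx i => (hσ x i (mem_filter.1 hx).1).2.2.1)
      (fun x hx i => (hσ x i (mem_filter.1 hx).1).2.2.2) (fun x hx y hy i => ?_) hx hy hj
    have : σ x i ∈ univ.image (σ y) := by
      rw [(mem_filter.1 hy).2, ← (mem_filter.1 hx).2]
      exact mem_image_of_mem _ (mem_univ _)
    obtain ⟨j, -, e⟩ := mem_image.1 this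
    exact ⟨j, e.symm⟩

theorem main (m : ℕ) (T : Finset (Finset (Finset (Fin n × Bool)))) (hm : ∀ F ∈ T, F.card ≤ m)
    (A : Finset (Fin n → Bool))
    (hT : ∀ x, (∃ F ∈ T, ∀ C ∈ F, ∃ l ∈ C, x l.1 = l.2) ↔ x ∈ A)
    (hI : ∀ x ∈ A, ∀ i, Function.update x i (!x i) ∉ A) :
    A.card ≤ T.card * (2 ^ (n / 2) * m.choose n) := by
  classical
  have hsub : A ⊆ T.biUnion fun F => A.filter fun x => ∀ C ∈ F, ∃ l ∈ C, x l.1 = l.2 := by
    intro x hx
    obtain ⟨F, hF, h⟩ := (hT x).2 hx
    exact mem_biUnion.2 ⟨F, hF, mem_filter.2 ⟨hx, h⟩⟩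
  refine (card_le_card hsub).trans (card_biUnion_le_card_mul _ _ _ fun F hF => ?_)
  refine (cnf_bound F _ (fun x hx => (mem_filter.1 hx).2) fun x hx i h => ?_).trans
    (Nat.mul_le_mul_left _ (Nat.choose_le_choose n (hm F hF)))
  exact hI x (mem_filter.1 hx).1 i ((hT _).1 ⟨F, hF, h⟩)

theorem odd_flip (x : Fin n → Bool) (i : Fin n) :
    Odd (univ.filter fun j => Function.update x i (!x i) j = true).card ↔
      ¬ Odd (univ.filter fun j => x j = true).card := by
  classical
  have key : ∀ y : Fin n → Bool, (univ.filter fun j => y j = true).card =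
      (if y i = true then 1 else 0) + ((univ.erase i).filter fun j => y j = true).card := by
    intro y
    rw [card_filter, card_filter, add_sum_erase univ (fun j => if y j = true then 1 else 0)
      (mem_univ i)]
  rw [key x, key (Function.update x i (!x i))]
  have e : ((univ.erase i).filter fun j => Function.update x i (!x i) j = true) =
      (univ.erase i).filter fun j => x j = true :=
    filter_congr fun j hj => by rw [Function.update_of_ne (ne_of_mem_erase hj)]
  rw [e, Function.update_self]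
  cases x i <;> simp [Nat.odd_add, Nat.not_odd_iff_even, Nat.not_even_iff_odd]

theorem parity (hn : 0 < n) (m : ℕ) (T : Finset (Finset (Finset (Fin n × Bool))))
    (hm : ∀ F ∈ T, F.card ≤ m)
    (hT : ∀ x : Fin n → Bool, (∃ F ∈ T, ∀ C ∈ F, ∃ l ∈ C, x l.1 = l.2) ↔
      Odd (univ.filter fun j => x j = true).card) :
    2 ^ (n - 1) ≤ T.card * (2 ^ (n / 2) * m.choose n) := by
  classical
  let A : Finset (Fin n → Bool) := univ.filter fun x => Odd (univ.filter fun j => x j = true).card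
  have hA : ∀ x, x ∈ A ↔ Odd (univ.filter fun j => x j = true).card := fun x => by simp [A]
  refine le_trans ?_ (main m T hm A (fun x => (hT x).trans (hA x).symm) fun x hx i h => ?_)
  · have h1 : (univ \ A).card ≤ A.card := by
      refine card_le_card_of_injOn (fun x => Function.update x ⟨0, hn⟩ (!x ⟨0, hn⟩))
        (fun x hx => ?_) fun x _ y _ h => ?_
      · refine mem_coe.2 ((hA _).2 ((odd_flip x _).2 fun h => ?_))
        exact (mem_sdiff.1 (mem_coe.1 hx)).2 ((hA x).2 h)
      · funext j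
        have := congrFun h j
        by_cases hj : j = ⟨0, hn⟩
        · subst hj
          simpa using this
        · simpa [Function.update_of_ne hj] using this
    rw [card_sdiff_of_subset (subset_univ A), card_univ, Fintype.card_fun, Fintype.card_bool,
      Fintype.card_fin] at h1
    have h2 : 2 ^ n = 2 * 2 ^ (n - 1) := by
      rw [← pow_succ']
      congr 1
      omega
    omega
  · exact (odd_flip x i).1 ((hA _).1 h) ((hA x).1 hx)

end P336M
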