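import Vale.Agent.P336M.Main

namespace P336M

open Finset

variable {n : ℕ}

theorem cube_card (S : Finset (Fin n)) (x : Fin n → Bool) :
    (Fintype.piFinset fun j => if j ∈ S then (univ : Finset Bool) else {x j}).card = 2 ^ S.card := by
  rw [Fintype.card_piFinset]
  have : ∀ j, (if j ∈ S then (univ : Finset Bool) else {x j}).card = if j ∈ S then 2 else 1 := by
    intro j
    split_ifs <;> simp
  simp only [this]
  rw [prod_ite_mem, univ_inter, prod_const]

/-- critical clause data -/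
def Crit (F : Finset (Finset (Fin n × Bool))) (A : Finset (Fin n → Bool))
    (σ : (Fin n → Bool) → Fin n → Finset (Fin n × Bool)) : Prop :=
  (∀ x ∈ A, ∀ C ∈ F, ∃ l ∈ C, x l.1 = l.2) ∧ ∀ x ∈ A, ∀ i, σ x i ∈ F ∧
    (∀ j, (j, x j) ∈ σ x i → j = i) ∧ (i, !x i) ∉ σ x i

/-- forced variables -/
def forced (σ : (Fin n → Bool) → Fin n → Finset (Fin n × Bool)) (P : Finset (Fin n))
    (x : Fin n → Bool) : Finset (Fin n) :=
  P.filter fun i => ∀ l ∈ σ x i, l.1 ≠ i → l.1 ∉ P

theorem kraft {F : Finset (Finset (Fin n × Bool))} {B : Finset (Fin n → Bool)}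
    {σ : (Fin n → Bool) → Fin n → Finset (Fin n × Bool)} (h : Crit F B σ) {U P : Finset (Fin n)}
    (hU : ∀ x ∈ B, ∀ y ∈ B, ∀ j, j ∉ U → x j = y j) (hP : P ⊆ U) :
    ∑ x ∈ B, 2 ^ (forced σ P x).card ≤ 2 ^ U.card := by
  classical
  rcases B.eq_empty_or_nonempty with rfl | ⟨ρ, hρ⟩
  · simp
  have key : ∀ x ∈ B, ∀ y ∈ B, (∀ j, j ∉ P → x j = y j) → ∀ i ∈ forced σ P x, x i = y i := by
    intro x hx y hy hxy i hi
    obtain ⟨h1, h2, h3⟩ := h.2 x hx i
    obtain ⟨⟨a, b⟩, hl, e⟩ := h.1 y hy _ h1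
    simp only at e
    subst e
    by_cases hai : a = i
    · subst hai
      by_contra hc
      have : y a = !x a := by
        revert hc; cases x a <;> cases y a <;> simp
      exact h3 (this ▸ hl)
    · have := hxy a ((mem_filter.1 hi).2 _ hl hai)
      exact absurd (h2 a (this ▸ hl)) hai
  rw [← cube_card U ρ, sum_congr rfl fun x _ => (cube_card (forced σ P x) x).symm,
    ← card_biUnion]
  · refine card_le_card fun y hy => ?_
    obtain ⟨x, hx, hy⟩ := mem_biUnion.1 hy
    rw [Fintype.mem_piFinset] at hy ⊢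
    intro j
    by_cases hj : j ∈ U
    · simp [hj]
    · have hj' : j ∉ forced σ P x := fun h => hj (hP (mem_filter.1 h).1)
      have := hy j
      simp only [hj', if_false, mem_singleton] at this
      simp only [hj, if_false, mem_singleton, this]
      exact hU x hx ρ hρ j hj
  · intro x hx y hy hne
    rw [Function.onFun, disjoint_left]
    intro z hz hz'
    rw [Fintype.mem_piFinset] at hz hz'
    have e : ∀ j, j ∉ forced σ P x → j ∉ forced σ P y → x j = y j := by
      intro j h1 h2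
      have a := hz j
      have b := hz' j
      simp only [h1, h2, if_false, mem_singleton] at a b
      rw [← a, b]
    have e' : ∀ j, j ∉ P → x j = y j := fun j hj =>
      e j (fun h => hj (mem_filter.1 h).1) fun h => hj (mem_filter.1 h).1
    refine hne (funext fun j => ?_)
    by_cases h1 : j ∈ forced σ P x
    · exact key x hx y hy e' j h1
    by_cases h2 : j ∈ forced σ P y
    · exact (key y hy x hx (fun j hj => (e' j hj).symm) j h2).symm
    exact e j h1 h2

/-- other free variables of a clause -/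
def others (U : Finset (Fin n)) (C : Finset (Fin n × Bool)) (i : Fin n) : Finset (Fin n) :=
  U.filter fun j => j ≠ i ∧ ∃ b, (j, b) ∈ C

theorem one_prob (σ : (Fin n → Bool) → Fin n → Finset (Fin n × Bool)) (U : Finset (Fin n))
    (x : Fin n → Bool) {i : Fin n} (hi : i ∈ U) {p : ℝ} (h0 : 0 ≤ p) (h1 : p ≤ 1) :
    p * (1 - p) ^ (others U (σ x i) i).card ≤ ∑ t ∈ U.powerset,
      ((∏ _a ∈ t, p) * ∏ _a ∈ U \ t, (1 - p)) * (if i ∈ forced σ t x then 1 else 0) := by
  classical
  set S := others U (σ x i) i with hS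
  have hiS : i ∉ S := fun h => (mem_filter.1 h).2.1 rfl
  have hSU : S ⊆ U := filter_subset _ _
  have e : p * (1 - p) ^ S.card =
      ∏ j ∈ U, ((if j ∈ S then 0 else p) + (if j = i then 0 else 1 - p)) := by
    have : ∀ j ∈ U, ((if j ∈ S then 0 else p) + (if j = i then 0 else 1 - p)) =
        (if j = i then p else 1) * (if j ∈ S then 1 - p else 1) := by
      intro j _
      by_cases a : j = i
      · subst a; simp [hiS]
      · by_cases b : j ∈ S <;> simp [a, b]
    rw [prod_congr rfl this, prod_mul_distrib, prod_ite_eq', if_pos hi, prod_ite_mem,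
      inter_eq_right.2 hSU, prod_const]
  rw [e, prod_add]
  refine sum_le_sum fun t ht => ?_
  have htU := mem_powerset.1 ht
  have hq : 0 ≤ 1 - p := by linarith
  by_cases hf : i ∈ forced σ t x
  · rw [if_pos hf, mul_one]
    refine mul_le_mul (prod_le_prod (fun j _ => ?_) fun j _ => ?_)
      (prod_le_prod (fun j _ => ?_) fun j _ => ?_) (prod_nonneg fun j _ => ?_)
      (prod_nonneg fun _ _ => h0) <;> split_ifs <;> first | exact le_rfl | assumption
  · rw [if_neg hf, mul_zero]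
    by_cases hit : i ∈ t
    · have : ¬ ∀ l ∈ σ x i, l.1 ≠ i → l.1 ∉ t := fun h => hf (mem_filter.2 ⟨hit, h⟩)
      push Not at this
      obtain ⟨l, hl, hli, hlt⟩ := this
      have hlS : l.1 ∈ S := mem_filter.2 ⟨htU hlt, hli, l.2, hl⟩
      rw [prod_eq_zero (f := fun j => if j ∈ S then (0 : ℝ) else p) hlt (if_pos hlS), zero_mul]
    · rw [prod_eq_zero (f := fun j => if j = i then (0 : ℝ) else 1 - p)
        (mem_sdiff.2 ⟨hi, hit⟩) (if_pos rfl), mul_zero]

theorem narrow {F : Finset (Finset (Fin n × Bool))} {B : Finset (Fin n → Bool)}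
    {σ : (Fin n → Bool) → Fin n → Finset (Fin n × Bool)} (h : Crit F B σ) {U : Finset (Fin n)}
    (hU : ∀ x ∈ B, ∀ y ∈ B, ∀ j, j ∉ U → x j = y j) {k : ℕ} (hk : 1 ≤ k)
    (hw : ∀ x ∈ B, ∀ i ∈ U, (others U (σ x i) i).card ≤ k) :
    (B.card : ℝ) ≤ (2 : ℝ) ^ ((1 - 1 / (4 * (k : ℝ))) * U.card) := by
  classical
  have hk' : (1 : ℝ) ≤ k := by exact_mod_cast hk
  set p : ℝ := 1 / (2 * k) with hp
  have h0 : 0 ≤ p := by positivity
  have hpk : k * p = 1 / 2 := by rw [hp]; field_simp
  have h1 : p ≤ 1 := by nlinarith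
  have hq : 0 ≤ 1 - p := by linarith
  set w : Finset (Fin n) → ℝ := fun t => (∏ _a ∈ t, p) * ∏ _a ∈ U \ t, (1 - p) with hwd
  have hw0 : ∀ t, 0 ≤ w t := fun t =>
    mul_nonneg (prod_nonneg fun _ _ => h0) (prod_nonneg fun _ _ => hq)
  have hw1 : ∑ t ∈ U.powerset, w t = 1 := by
    rw [hwd, ← prod_add]
    simp
  set a : ℝ := 1 / (4 * (k : ℝ)) * U.card with ha
  have hE : ∀ x ∈ B, a ≤ ∑ t ∈ U.powerset, w t * (forced σ t x).card := by
    intro x hx
    have e : ∑ t ∈ U.powerset, w t * (forced σ t x).card = ∑ i ∈ U, ∑ t ∈ U.powerset,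
        w t * (if i ∈ forced σ t x then 1 else 0) := by
      rw [sum_comm]
      refine sum_congr rfl fun t ht => ?_
      have hs : forced σ t x ⊆ U := (filter_subset _ _).trans (mem_powerset.1 ht)
      rw [← mul_sum, sum_ite_mem, inter_eq_right.2 hs]
      simp
    rw [e, ha, mul_comm, ← nsmul_eq_mul, ← sum_const]
    refine sum_le_sum fun i hi => le_trans ?_ (one_prob σ U x hi h0 h1)
    have b1 : 1 + (k : ℝ) * (-p) ≤ (1 + -p) ^ k := one_add_mul_le_pow (by linarith) k
    have b2 : (1 - p) ^ k ≤ (1 - p) ^ (others U (σ x i) i).card :=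
      pow_le_pow_of_le_one hq (by linarith) (hw x hx i hi)
    have b3 : 1 / (4 * (k : ℝ)) = p * (1 / 2) := by rw [hp]; field_simp; norm_num
    rw [b3]
    refine mul_le_mul_of_nonneg_left ?_ h0
    rw [← sub_eq_add_neg] at b1
    linarith
  have hl : 0 < Real.log 2 := Real.log_pos one_lt_two
  have ha0 : (0 : ℝ) < 2 ^ a := by positivity
  have hJ : ∀ x ∈ B, (2 : ℝ) ^ a ≤ ∑ t ∈ U.powerset, w t * 2 ^ (forced σ t x).card := by
    intro x hx
    have t1 : ∀ c : ℕ, (2 : ℝ) ^ a * (1 + Real.log 2 * (c - a)) ≤ 2 ^ c := by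
      intro c
      have e : (2 : ℝ) ^ c = 2 ^ a * Real.exp (Real.log 2 * (c - a)) := by
        rw [← Real.rpow_def_of_pos two_pos, ← Real.rpow_add two_pos, ← Real.rpow_natCast]
        congr 1
        ring
      rw [e]
      exact mul_le_mul_of_nonneg_left (by linarith [Real.add_one_le_exp (Real.log 2 * (c - a))])
        ha0.le
    refine le_trans ?_ (sum_le_sum fun t _ => mul_le_mul_of_nonneg_left (t1 _) (hw0 t))
    have e : ∑ t ∈ U.powerset, w t * ((2 : ℝ) ^ a *
        (1 + Real.log 2 * (((forced σ t x).card : ℝ) - a))) =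
        2 ^ a * (1 - Real.log 2 * a) * ∑ t ∈ U.powerset, w t +
          2 ^ a * Real.log 2 * ∑ t ∈ U.powerset, w t * (forced σ t x).card := by
      rw [mul_sum, mul_sum, ← sum_add_distrib]
      exact sum_congr rfl fun t _ => by ring
    rw [e, hw1]
    have := mul_le_mul_of_nonneg_left (hE x hx) (mul_pos ha0 hl).le
    nlinarith
  have hfin : (B.card : ℝ) * 2 ^ a ≤ 2 ^ U.card := by
    rw [← nsmul_eq_mul, ← sum_const]
    refine (sum_le_sum hJ).trans ?_
    rw [sum_comm]
    calc _ ≤ ∑ t ∈ U.powerset, w t * 2 ^ U.card := by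
          refine sum_le_sum fun t ht => ?_
          rw [← mul_sum]
          refine mul_le_mul_of_nonneg_left ?_ (hw0 t)
          exact_mod_cast kraft h hU (mem_powerset.1 ht)
      _ = _ := by rw [← sum_mul, hw1, one_mul]
  have e : (2 : ℝ) ^ U.card = 2 ^ ((1 - 1 / (4 * (k : ℝ))) * U.card) * 2 ^ a := by
    rw [← Real.rpow_add two_pos, ← Real.rpow_natCast]
    congr 1
    rw [ha]
    ring
  rw [e] at hfin
  exact le_of_mul_le_mul_right hfin ha0

theorem wide {F : Finset (Finset (Fin n × Bool))}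
    {σ : (Fin n → Bool) → Fin n → Finset (Fin n × Bool)} {k : ℕ} (hk : 1 ≤ k)
    (hm : 2 * (F.filter fun C => k < C.card).card * n ≤ 2 ^ k) (u : ℕ) :
    ∀ (U : Finset (Fin n)) (B : Finset (Fin n → Bool)), U.card = u → Crit F B σ →
      (∀ x ∈ B, ∀ y ∈ B, ∀ j, j ∉ U → x j = y j) →
      (B.card : ℝ) ≤ 2 * (2 : ℝ) ^ ((1 - 1 / (4 * (k : ℝ))) * u) := by
  classical
  induction u using Nat.strong_induction_on with
  | _ u ih =>
  intro U B hu h hU
  have hk' : (1 : ℝ) ≤ k := by exact_mod_cast hk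
  set θ : ℝ := 1 - 1 / (4 * (k : ℝ)) with hθ
  have hθ1 : (k : ℝ) ≤ θ * (k + 1) := by
    have : 1 / (4 * (k : ℝ)) * (k + 1) ≤ 1 := by
      rw [div_mul_eq_mul_div, div_le_one (by positivity)]
      linarith
    rw [hθ]
    linarith
  have hθ0 : 0 ≤ θ := by
    by_contra hc
    nlinarith [not_le.1 hc]
  have hsub : ∀ B' ⊆ B, Crit F B' σ := fun B' hB' =>
    ⟨fun x hx => h.1 x (hB' hx), fun x hx => h.2 x (hB' hx)⟩
  set B1 := B.filter fun x => ∀ i ∈ U, (others U (σ x i) i).card ≤ k with hB1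
  set G : Finset (Fin n × Bool) × Fin n → Finset (Fin n → Bool) := fun q =>
    B.filter fun x => σ x q.2 = q.1 ∧ k < (others U q.1 q.2).card with hG
  have c1 : (B1.card : ℝ) ≤ 2 ^ (θ * u) := by
    rw [← hu]
    exact narrow (hsub _ (filter_subset _ _))
      (fun x hx y hy => hU x (mem_filter.1 hx).1 y (mem_filter.1 hy).1) hk
      fun x hx => (mem_filter.1 hx).2
  have c2 : ∀ q, ((G q).card : ℝ) * 2 ^ k ≤ 2 * 2 ^ (θ * u) := by
    intro q
    by_cases hq : k < (others U q.1 q.2).card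
    · have hS : others U q.1 q.2 ⊆ U := filter_subset _ _
      have hc := card_sdiff_add_card_eq_card hS
      have := ih (U \ others U q.1 q.2).card (by omega) _ (G q) rfl (hsub _ (filter_subset _ _))
        (fun x hx y hy j hj => by
          obtain ⟨hx, ex, -⟩ := mem_filter.1 hx
          obtain ⟨hy, ey, -⟩ := mem_filter.1 hy
          by_cases hjU : j ∈ U
          · have hjS : j ∈ others U q.1 q.2 := by
              by_contra hc
              exact hj (mem_sdiff.2 ⟨hjU, hc⟩)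
            obtain ⟨-, hne, b, hb⟩ := mem_filter.1 hjS
            have a1 : x j ≠ b := fun e => hne ((h.2 x hx q.2).2.1 j (by rw [ex, e]; exact hb))
            have a2 : y j ≠ b := fun e => hne ((h.2 y hy q.2).2.1 j (by rw [ey, e]; exact hb))
            revert a1 a2
            cases x j <;> cases y j <;> cases b <;> simp
          · exact hU x hx y hy j hjU)
      refine (mul_le_mul_of_nonneg_right this (by positivity)).trans ?_
      rw [mul_assoc, ← Real.rpow_natCast, ← Real.rpow_add two_pos]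
      refine mul_le_mul_of_nonneg_left (Real.rpow_le_rpow_of_exponent_le one_le_two ?_) two_pos.le
      have e : ((U \ others U q.1 q.2).card : ℝ) + (k + 1) ≤ u := by
        have : (U \ others U q.1 q.2).card + (k + 1) ≤ u := by omega
        exact_mod_cast this
      nlinarith [mul_le_mul_of_nonneg_left e hθ0]
    · have : G q = ∅ := filter_eq_empty_iff.2 fun x _ hx => hq hx.2
      rw [this, card_empty, Nat.cast_zero, zero_mul]
      positivity
  set F' := F.filter fun C => k < C.card with hF'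
  have c3 : B ⊆ B1 ∪ (F' ×ˢ (univ : Finset (Fin n))).biUnion G := by
    intro x hx
    by_cases h1 : ∀ i ∈ U, (others U (σ x i) i).card ≤ k
    · exact mem_union_left _ (mem_filter.2 ⟨hx, h1⟩)
    · push Not at h1
      obtain ⟨i, -, hi⟩ := h1
      have hs : others U (σ x i) i ⊆ (σ x i).image Prod.fst := fun j hj => by
        obtain ⟨-, -, b, hb⟩ := mem_filter.1 hj
        exact mem_image.2 ⟨_, hb, rfl⟩
      have hlt : k < (σ x i).card := hi.trans_le ((card_le_card hs).trans card_image_le)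
      exact mem_union_right _ (mem_biUnion.2 ⟨(σ x i, i),
        mem_product.2 ⟨mem_filter.2 ⟨(h.2 x hx i).1, hlt⟩, mem_univ _⟩,
        mem_filter.2 ⟨hx, rfl, hi⟩⟩)
  have c4 : (B.card : ℝ) ≤ B1.card + ∑ q ∈ F' ×ˢ (univ : Finset (Fin n)), ((G q).card : ℝ) := by
    exact_mod_cast (card_le_card c3).trans ((card_union_le _ _).trans
      (Nat.add_le_add_left card_biUnion_le _))
  have c5 : (∑ q ∈ F' ×ˢ (univ : Finset (Fin n)), ((G q).card : ℝ)) * 2 ^ k ≤
      2 ^ (θ * u) * 2 ^ k := by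
    rw [sum_mul]
    refine (sum_le_card_nsmul _ _ _ fun q _ => c2 q).trans ?_
    rw [card_product, card_univ, Fintype.card_fin, nsmul_eq_mul]
    have hm' : (2 : ℝ) * F'.card * n ≤ 2 ^ k := by exact_mod_cast hm
    have := mul_le_mul_of_nonneg_left hm' (by positivity : (0 : ℝ) ≤ 2 ^ (θ * u))
    push_cast
    linarith
  have c6 := le_of_mul_le_mul_right c5 (by positivity)
  linarith

theorem exists_crit (F : Finset (Finset (Fin n × Bool))) (A : Finset (Fin n → Bool))
    (hA : ∀ x ∈ A, ∀ C ∈ F, ∃ l ∈ C, x l.1 = l.2)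
    (hI : ∀ x ∈ A, ∀ i, ¬ ∀ C ∈ F, ∃ l ∈ C, Function.update x i (!x i) l.1 = l.2) :
    ∃ σ, Crit F A σ := by
  classical
  have hσ : ∀ x i, ∃ C : Finset (Fin n × Bool), x ∈ A → C ∈ F ∧
      (∀ j, (j, x j) ∈ C → j = i) ∧ (i, !x i) ∉ C := by
    intro x i
    by_cases hx : x ∈ A
    · have := hI x hx i
      push Not at this
      obtain ⟨C, hC, h⟩ := this
      have g : ∀ j, (j, x j) ∈ C → j = i := fun j hj => by
        by_contra hji
        exact h _ hj (by simp [Function.update_of_ne hji])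
      exact ⟨C, fun _ => ⟨hC, g, fun hm => h _ hm (by simp)⟩⟩
    · exact ⟨∅, fun h => absurd h hx⟩
  choose σ hσ using hσ
  exact ⟨σ, hA, fun x hx i => hσ x i hx⟩

theorem trade (m k : ℕ) (hk : 1 ≤ k) (hmk : 2 * m * n ≤ 2 ^ k)
    (T : Finset (Finset (Finset (Fin n × Bool))))
    (hm : ∀ F ∈ T, (F.filter fun C => k < C.card).card ≤ m)
    (A : Finset (Fin n → Bool))
    (hT : ∀ x, (∃ F ∈ T, ∀ C ∈ F, ∃ l ∈ C, x l.1 = l.2) ↔ x ∈ A)
    (hI : ∀ x ∈ A, ∀ i, Function.update x i (!x i) ∉ A) :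
    (A.card : ℝ) ≤ T.card * (2 * (2 : ℝ) ^ ((1 - 1 / (4 * (k : ℝ))) * n)) := by
  classical
  have hsub : A ⊆ T.biUnion fun F => A.filter fun x => ∀ C ∈ F, ∃ l ∈ C, x l.1 = l.2 := by
    intro x hx
    obtain ⟨F, hF, h⟩ := (hT x).2 hx
    exact mem_biUnion.2 ⟨F, hF, mem_filter.2 ⟨hx, h⟩⟩
  have c : (A.card : ℝ) ≤ ∑ F ∈ T,
      ((A.filter fun x => ∀ C ∈ F, ∃ l ∈ C, x l.1 = l.2).card : ℝ) := by
    exact_mod_cast (card_le_card hsub).trans card_biUnion_le
  refine c.trans ((sum_le_card_nsmul _ _ _ fun F hF => ?_).trans (nsmul_eq_mul _ _).le)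
  obtain ⟨σ, hσ⟩ := exists_crit F (A.filter fun x => ∀ C ∈ F, ∃ l ∈ C, x l.1 = l.2)
    (fun x hx => (mem_filter.1 hx).2)
    fun x hx i h => hI x (mem_filter.1 hx).1 i ((hT _).1 ⟨F, hF, h⟩)
  refine wide hk (le_trans ?_ hmk) n univ _ (by simp) hσ fun _ _ _ _ j hj => absurd (mem_univ j) hj
  exact Nat.mul_le_mul_right _ (Nat.mul_le_mul_left _ (hm F hF))

theorem trade_parity (hn : 0 < n) (m k : ℕ) (hk : 1 ≤ k) (hmk : 2 * m * n ≤ 2 ^ k)
    (T : Finset (Finset (Finset (Fin n × Bool))))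
    (hm : ∀ F ∈ T, (F.filter fun C => k < C.card).card ≤ m)
    (hT : ∀ x : Fin n → Bool, (∃ F ∈ T, ∀ C ∈ F, ∃ l ∈ C, x l.1 = l.2) ↔
      Odd (univ.filter fun j => x j = true).card) :
    (2 : ℝ) ^ ((n : ℝ) / (4 * k)) ≤ 4 * T.card := by
  classical
  let A : Finset (Fin n → Bool) := univ.filter fun x => Odd (univ.filter fun j => x j = true).card
  have hA : ∀ x, x ∈ A ↔ Odd (univ.filter fun j => x j = true).card := fun x => by simp [A]
  have c := trade m k hk hmk T hm A (fun x => (hT x).trans (hA x).symm)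
    fun x hx i h => (odd_flip x i).1 ((hA _).1 h) ((hA x).1 hx)
  have h1 : (univ \ A).card ≤ A.card := by
    refine card_le_card_of_injOn (fun x => Function.update x ⟨0, hn⟩ (!x ⟨0, hn⟩))
      (fun x hx => ?_) fun x _ y _ h => ?_
    · refine mem_coe.2 ((hA _).2 ((odd_flip x _).2 fun h => ?_))
      exact (mem_sdiff.1 (mem_coe.1 hx)).2 ((hA x).2 h)
    · funext j
      have := congrFun h j
      by_cases hj : j = ⟨0, hn⟩
      · subst hj
        simpa using this
      · simpa [Function.update_of_ne hj] using this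
  rw [card_sdiff_of_subset (subset_univ A), card_univ, Fintype.card_fun, Fintype.card_bool,
    Fintype.card_fin] at h1
  have h2 : 2 ^ n ≤ 2 * A.card := by omega
  have h3 : (2 : ℝ) ^ n ≤ 2 * A.card := by exact_mod_cast h2
  have e : (2 : ℝ) ^ n = 2 ^ ((n : ℝ) / (4 * k)) * 2 ^ ((1 - 1 / (4 * (k : ℝ))) * n) := by
    rw [← Real.rpow_add two_pos, ← Real.rpow_natCast]
    congr 1
    ring
  have h4 : (0 : ℝ) < 2 ^ ((1 - 1 / (4 * (k : ℝ))) * n) := by positivity
  refine le_of_mul_le_mul_right ?_ h4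
  linarith

end P336M
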